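import Mathlib

namespace Vale.Agent.Lib.P217

open Pointwise

variable {R : Type*} [CommRing R] {G : Type*} [Group G] [MulSemiringAction G R]

/-- An ideal stable under every element of the group is fixed by the pointwise action. -/
theorem smul_ideal_eq_of_invariant (J : Ideal R) (hJ : ∀ g : G, ∀ x ∈ J, g • x ∈ J) (g : G) :
    g • J = J := by
  apply le_antisymm
  · intro x hx
    rw [Ideal.mem_pointwise_smul_iff_inv_smul_mem] at hx
    have h2 := hJ g _ hx
    rwa [smul_inv_smul] at h2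
  · intro x hx
    rw [Ideal.mem_pointwise_smul_iff_inv_smul_mem]
    exact hJ g⁻¹ x hx

theorem smul_mem_minimalPrimes (J : Ideal R) (hJ : ∀ g : G, ∀ x ∈ J, g • x ∈ J) (g : G)
    (Q : Ideal R) (hQ : Q ∈ J.minimalPrimes) : g • Q ∈ J.minimalPrimes := by
  obtain ⟨⟨hQp, hJQ⟩, hmin⟩ := hQ
  refine ⟨⟨Ideal.IsPrime.smul g, ?_⟩, ?_⟩
  · have := smul_ideal_eq_of_invariant J hJ g
    calc J = g • J := this.symm
      _ ≤ g • Q := Ideal.pointwise_smul_le_pointwise_smul_iff.mpr hJQ
  · intro Q' ⟨hQ'p, hJQ'⟩ hQ'le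
    have h1 : g⁻¹ • Q' ≤ Q := Ideal.subset_pointwise_smul_iff.mp hQ'le
    have h2 : J ≤ g⁻¹ • Q' := by
      have := smul_ideal_eq_of_invariant J hJ g⁻¹
      calc J = g⁻¹ • J := this.symm
        _ ≤ g⁻¹ • Q' := Ideal.pointwise_smul_le_pointwise_smul_iff.mpr hJQ'
    have h3 : Q ≤ g⁻¹ • Q' := hmin ⟨Ideal.IsPrime.smul g⁻¹, h2⟩ h1
    have h4 := Ideal.subset_pointwise_smul_iff.mp (show Q ≤ g⁻¹ • Q' from h3)
    rwa [inv_inv] at h4

/-- The stabilizer of a minimal prime of an invariant ideal in a noetherian ring has finite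
index. -/
theorem finiteIndex_stabilizer_of_mem_minimalPrimes [IsNoetherianRing R]
    (J : Ideal R) (hJ : ∀ g : G, ∀ x ∈ J, g • x ∈ J)
    (Q : Ideal R) (hQ : Q ∈ J.minimalPrimes) :
    (MulAction.stabilizer G Q).FiniteIndex := by
  have hfin : (J.minimalPrimes).Finite := Ideal.finite_minimalPrimes_of_isNoetherianRing R J
  have horb : (MulAction.orbit G Q).Finite := by
    apply hfin.subset
    rintro _ ⟨g, rfl⟩
    exact smul_mem_minimalPrimes J hJ g Q hQ
  have : Finite (MulAction.orbit G Q) := horb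
  have : Finite (G ⧸ MulAction.stabilizer G Q) :=
    Finite.of_equiv _ (MulAction.orbitEquivQuotientStabilizer G Q)
  exact Subgroup.finiteIndex_of_finite_quotient

/-- Radical ideals from primes: if all primes invariant under finite-index subgroups lie in a
chain, then every proper invariant radical ideal is a member of that chain. -/
theorem radical_mem_of_chain [IsNoetherianRing R] (S : Set (Ideal R))
    (hS : IsChain (· ≤ ·) S)
    (hprime : ∀ H : Subgroup G, H.FiniteIndex → ∀ Q : Ideal R, Q.IsPrime →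
      (∀ g ∈ H, ∀ x ∈ Q, g • x ∈ Q) → Q ∈ S)
    (J : Ideal R) (hJrad : J.IsRadical) (hJ : ∀ g : G, ∀ x ∈ J, g • x ∈ J) (hJtop : J ≠ ⊤) :
    J ∈ S := by
  have hsub : J.minimalPrimes ⊆ S := by
    intro Q hQ
    have hQp : Q.IsPrime := hQ.1.1
    refine hprime (MulAction.stabilizer G Q)
      (finiteIndex_stabilizer_of_mem_minimalPrimes J hJ Q hQ) Q hQp ?_
    intro g hg x hx
    have : g • Q = Q := hg
    rw [← this]
    exact Ideal.smul_mem_pointwise_smul_iff.mpr hx
  obtain ⟨Q, hQ⟩ : J.minimalPrimes.Nonempty := by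
    rw [Set.nonempty_iff_ne_empty]
    intro h
    apply hJtop
    rw [← hJrad.radical, ← Ideal.sInf_minimalPrimes, h, sInf_empty]
  have hall : ∀ Q' ∈ J.minimalPrimes, Q' = Q := by
    intro Q' hQ'
    by_contra hne
    rcases hS (hsub hQ') (hsub hQ) hne with h | h
    · exact hne (le_antisymm h (hQ.2 hQ'.1 h))
    · exact hne (le_antisymm (hQ'.2 hQ.1 h) h)
  have : J.minimalPrimes = {Q} := by
    ext Q'
    constructor
    · intro h; exact hall Q' h
    · rintro rfl; exact hQ
  have hJQ : J = Q := by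
    rw [← hJrad.radical, ← Ideal.sInf_minimalPrimes, this, sInf_singleton]
  rw [hJQ]
  exact hsub hQ

end Vale.Agent.Lib.P217

namespace Vale.Agent.Lib.P217

open Pointwise

variable {R : Type*} [CommRing R] {G : Type*} [Group G] [MulSemiringAction G R]

theorem span_image_Iio_mono (u : ℕ → R) {a b : ℕ} (hab : a ≤ b) :
    Ideal.span (u '' Set.Iio a) ≤ Ideal.span (u '' Set.Iio b) :=
  Ideal.span_mono (Set.image_mono (Set.Iio_subset_Iio hab))

theorem span_image_Iio_succ_le (u : ℕ → R) (h : ℕ) (Q : Ideal R)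
    (h1 : Ideal.span (u '' Set.Iio h) ≤ Q) (h2 : u h ∈ Q) :
    Ideal.span (u '' Set.Iio (h + 1)) ≤ Q := by
  rw [Ideal.span_le]
  rintro _ ⟨k, hk, rfl⟩
  rcases Nat.lt_succ_iff_lt_or_eq.mp hk with hk' | rfl
  · exact h1 (Ideal.subset_span ⟨k, hk', rfl⟩)
  · exact h2

/-- Height filtration: in a local ring whose maximal ideal is generated by `u 0, ..., u (n-1)`,
a prime `Q` either is one of the ideals `(u 0, ..., u (h-1))`, or properly contains one of
them with `h < n` while avoiding `u h`. -/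
theorem prime_eq_span_of_hope [IsLocalRing R] (n : ℕ) (u : ℕ → R)
    (hmax : Ideal.span (u '' Set.Iio n) = IsLocalRing.maximalIdeal R)
    (Q : Ideal R) (hQ : Q.IsPrime)
    (hope : ∀ h < n, Ideal.span (u '' Set.Iio h) ≤ Q → u h ∉ Q →
      Q = Ideal.span (u '' Set.Iio h)) :
    ∃ h ≤ n, Q = Ideal.span (u '' Set.Iio h) := by
  by_cases hn : Ideal.span (u '' Set.Iio n) ≤ Q
  · refine ⟨n, le_rfl, ?_⟩
    rw [hmax] at hn ⊢
    exact le_antisymm (IsLocalRing.le_maximalIdeal hQ.ne_top) hn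
  · have hex : ∃ k, ¬ Ideal.span (u '' Set.Iio k) ≤ Q := ⟨n, hn⟩
    classical
    set k := Nat.find hex with hk
    have hk1 : ¬ Ideal.span (u '' Set.Iio k) ≤ Q := Nat.find_spec hex
    have hk0 : k ≠ 0 := by
      intro h0
      apply hk1
      rw [h0]
      simp
    obtain ⟨h, hh⟩ : ∃ h, k = h + 1 := Nat.exists_eq_succ_of_ne_zero hk0
    have hh1 : Ideal.span (u '' Set.Iio h) ≤ Q := by
      by_contra hcon
      have := Nat.find_min hex (m := h) (by omega)
      exact this hcon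
    have hh2 : u h ∉ Q := by
      intro hmem
      apply hk1
      rw [hh]
      exact span_image_Iio_succ_le u h Q hh1 hmem
    have hkn : k ≤ n := Nat.find_min' hex hn
    exact ⟨h, by omega, hope h (by omega) hh1 hh2⟩

/-- Combined reduction. -/
theorem chai_reduction [IsNoetherianRing R] [IsLocalRing R] (n : ℕ) (u : ℕ → R)
    (hmax : Ideal.span (u '' Set.Iio n) = IsLocalRing.maximalIdeal R)
    (hope : ∀ H : Subgroup G, H.FiniteIndex → ∀ h < n, ∀ Q : Ideal R, Q.IsPrime →
        (∀ g ∈ H, ∀ x ∈ Q, g • x ∈ Q) → Ideal.span (u '' Set.Iio h) ≤ Q → u h ∉ Q →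
        Q = Ideal.span (u '' Set.Iio h)) :
    (∀ H : Subgroup G, H.FiniteIndex → ∀ Q : Ideal R, Q.IsPrime →
        (∀ g ∈ H, ∀ x ∈ Q, g • x ∈ Q) → ∃ h ≤ n, Q = Ideal.span (u '' Set.Iio h)) ∧
    (∀ J : Ideal R, J.IsRadical → (∀ g : G, ∀ x ∈ J, g • x ∈ J) →
        J = ⊤ ∨ ∃ h ≤ n, J = Ideal.span (u '' Set.Iio h)) := by
  have key : ∀ H : Subgroup G, H.FiniteIndex → ∀ Q : Ideal R, Q.IsPrime →
        (∀ g ∈ H, ∀ x ∈ Q, g • x ∈ Q) → ∃ h ≤ n, Q = Ideal.span (u '' Set.Iio h) := by
    intro H hH Q hQ hinv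
    exact prime_eq_span_of_hope n u hmax Q hQ (fun h hh => hope H hH h hh Q hQ hinv)
  refine ⟨key, ?_⟩
  intro J hJrad hJ
  by_cases hJtop : J = ⊤
  · exact Or.inl hJtop
  · right
    set S : Set (Ideal R) := {I | ∃ h ≤ n, I = Ideal.span (u '' Set.Iio h)} with hS
    have hchain : IsChain (· ≤ ·) S := by
      rintro _ ⟨a, -, rfl⟩ _ ⟨b, -, rfl⟩ -
      rcases le_total a b with hab | hab
      · exact Or.inl (span_image_Iio_mono u hab)
      · exact Or.inr (span_image_Iio_mono u hab)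
    exact radical_mem_of_chain S hchain (fun H hH Q hQ hinv => key H hH Q hQ hinv) J hJrad hJ hJtop

end Vale.Agent.Lib.P217

namespace Vale.Agent.Lib.P217

open Pointwise

variable {R : Type*} [CommRing R] {G : Type*} [Group G] [MulSemiringAction G R]

/-- In a noetherian local ring every ideal is closed for the adic topology of the maximal ideal. -/
theorem le_of_forall_le_sup_pow [IsNoetherianRing R] [IsLocalRing R] (I Q : Ideal R)
    (h : ∀ k : ℕ, Q ≤ I ⊔ (IsLocalRing.maximalIdeal R) ^ k) : Q ≤ I := by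
  intro x hx
  have hbot := Ideal.iInf_pow_smul_eq_bot_of_isLocalRing (R := R) (M := R ⧸ I)
    (IsLocalRing.maximalIdeal R) Ideal.IsPrime.ne_top'
  have hmem : (Ideal.Quotient.mk I x : R ⧸ I) ∈
      (⨅ i : ℕ, (IsLocalRing.maximalIdeal R) ^ i • (⊤ : Submodule R (R ⧸ I))) := by
    rw [Submodule.mem_iInf]
    intro k
    have hxk := h k hx
    obtain ⟨a, ha, b, hb, rfl⟩ := Submodule.mem_sup.mp hxk
    have : (Ideal.Quotient.mk I (a + b) : R ⧸ I) = b • (Ideal.Quotient.mk I 1 : R ⧸ I) := by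
      rw [map_add, Ideal.Quotient.eq_zero_iff_mem.mpr ha, zero_add, map_one]
      rw [Algebra.smul_def, mul_one]
      rfl
    rw [this]
    exact Submodule.smul_mem_smul hb Submodule.mem_top
  rw [hbot] at hmem
  exact Ideal.Quotient.eq_zero_iff_mem.mp ((Submodule.mem_bot R).mp hmem)

/-- If the maximal ideal of a noetherian local ring is `I + (t)`, then the only prime containing
`I` and avoiding `t` is `I` itself. -/
theorem prime_eq_of_principal_step [IsNoetherianRing R] [IsLocalRing R] (I Q : Ideal R) (t : R)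
    (hm : I ⊔ Ideal.span {t} = IsLocalRing.maximalIdeal R) (hQ : Q.IsPrime) (hIQ : I ≤ Q)
    (ht : t ∉ Q) : Q = I := by
  refine le_antisymm (le_of_forall_le_sup_pow I Q ?_) hIQ
  intro k
  induction k with
  | zero => simp
  | succ k ih =>
    intro x hx
    have hxm : x ∈ IsLocalRing.maximalIdeal R := IsLocalRing.le_maximalIdeal hQ.ne_top hx
    rw [← hm] at hxm
    obtain ⟨a, ha, b, hb, rfl⟩ := Submodule.mem_sup.mp hxm
    obtain ⟨y, rfl⟩ := Ideal.mem_span_singleton'.mp hb
    have hyt : y * t ∈ Q := by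
      have := Q.sub_mem hx (hIQ ha)
      simpa using this
    have hy : y ∈ Q := (hQ.mem_or_mem hyt).resolve_right ht
    obtain ⟨c, hc, d, hd, rfl⟩ := Submodule.mem_sup.mp (ih hy)
    have htm : t ∈ IsLocalRing.maximalIdeal R := by
      rw [← hm]
      exact Ideal.mem_sup_right (Ideal.mem_span_singleton_self t)
    have h1 : a + c * t ∈ I := I.add_mem ha (I.mul_mem_right t hc)
    have h2 : d * t ∈ (IsLocalRing.maximalIdeal R) ^ (k + 1) := by
      rw [pow_succ]
      exact Ideal.mul_mem_mul hd htm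
    have : a + (c + d) * t = (a + c * t) + d * t := by ring
    rw [this]
    exact Submodule.add_mem_sup h1 h2

theorem span_image_Iio_succ (u : ℕ → R) (h : ℕ) :
    Ideal.span (u '' Set.Iio (h + 1)) = Ideal.span (u '' Set.Iio h) ⊔ Ideal.span {u h} := by
  apply le_antisymm
  · apply span_image_Iio_succ_le
    · exact le_sup_left
    · exact Ideal.mem_sup_right (Ideal.mem_span_singleton_self _)
  · apply sup_le
    · exact span_image_Iio_mono u (Nat.le_succ h)
    · rw [Ideal.span_le]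
      rintro _ rfl
      exact Ideal.subset_span ⟨h, Nat.lt_succ_self h, rfl⟩

/-- Combined reduction, with the top step `h = n - 1` discharged by the Krull intersection
theorem. -/
theorem chai_reduction' [IsNoetherianRing R] [IsLocalRing R] (n : ℕ) (u : ℕ → R)
    (hmax : Ideal.span (u '' Set.Iio n) = IsLocalRing.maximalIdeal R)
    (hope : ∀ H : Subgroup G, H.FiniteIndex → ∀ h, h + 1 < n → ∀ Q : Ideal R, Q.IsPrime →
        (∀ g ∈ H, ∀ x ∈ Q, g • x ∈ Q) → Ideal.span (u '' Set.Iio h) ≤ Q → u h ∉ Q →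
        Q = Ideal.span (u '' Set.Iio h)) :
    (∀ H : Subgroup G, H.FiniteIndex → ∀ Q : Ideal R, Q.IsPrime →
        (∀ g ∈ H, ∀ x ∈ Q, g • x ∈ Q) → ∃ h ≤ n, Q = Ideal.span (u '' Set.Iio h)) ∧
    (∀ J : Ideal R, J.IsRadical → (∀ g : G, ∀ x ∈ J, g • x ∈ J) →
        J = ⊤ ∨ ∃ h ≤ n, J = Ideal.span (u '' Set.Iio h)) := by
  apply chai_reduction n u hmax
  intro H hH h hh Q hQ hinv hle hu
  by_cases hlt : h + 1 < n
  · exact hope H hH h hlt Q hQ hinv hle hu
  · have hn : n = h + 1 := by omega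
    apply prime_eq_of_principal_step _ Q (u h) _ hQ hle hu
    rw [← span_image_Iio_succ, ← hn, hmax]

end Vale.Agent.Lib.P217
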